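import Vale.Agent.P251EJ.DefsS

/-!
# P251EJ, row BODY: the order simplex is a convex body
-/

set_option linter.all false

open Set Topology Filter

namespace Vale.Agent.P251EJ41

open Vale.Agent.P251EJ

theorem closed_ordS (d : ℕ) : IsClosed (ordS d) := by
  have : ordS d = (⋂ i, ⋂ j, ⋂ _ : i ≤ j, {t : Fin d → ℝ | t i ≤ t j}) ∩
      ⋂ i, {t | t i ∈ Icc (0 : ℝ) 1} := by
    ext t
    simp only [ordS, mem_setOf_eq, mem_inter_iff, mem_iInter]
    rfl
  rw [this]
  exact (isClosed_iInter fun i => isClosed_iInter fun j => isClosed_iInter fun _ =>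
    isClosed_le (continuous_apply i) (continuous_apply j)).inter
    (isClosed_iInter fun i => isClosed_Icc.preimage (continuous_apply i))

theorem open_int (d : ℕ) :
    IsOpen {t : Fin d → ℝ | StrictMono t ∧ ∀ i, t i ∈ Ioo (0 : ℝ) 1} := by
  have : {t : Fin d → ℝ | StrictMono t ∧ ∀ i, t i ∈ Ioo (0 : ℝ) 1} =
      (⋂ i, ⋂ j, ⋂ _ : i < j, {t : Fin d → ℝ | t i < t j}) ∩ ⋂ i, {t | t i ∈ Ioo (0 : ℝ) 1} := by
    ext t
    simp only [mem_setOf_eq, mem_inter_iff, mem_iInter]
    rfl
  rw [this]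
  exact (isOpen_iInter_of_finite fun i => isOpen_iInter_of_finite fun j =>
    isOpen_iInter_of_finite fun _ => isOpen_lt (continuous_apply i) (continuous_apply j)).inter
    (isOpen_iInter_of_finite fun i => isOpen_Ioo.preimage (continuous_apply i))

theorem move {d : ℕ} {t : Fin d → ℝ} (h : t ∈ interior (ordS d)) (v : Fin d → ℝ) :
    ∃ e : ℝ, 0 < e ∧ t + e • v ∈ ordS d := by
  have c : Tendsto (fun e : ℝ => t + e • v) (𝓝[>] 0) (𝓝 t) := by
    have : Continuous fun e : ℝ => t + e • v := by fun_prop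
    simpa using (this.tendsto 0).mono_left (nhdsWithin_le_nhds (s := Ioi 0))
  exact ((eventually_mem_nhdsWithin (a := (0 : ℝ)) (s := Ioi 0)).and
    (c.eventually (mem_interior_iff_mem_nhds.1 h))).exists

theorem interior_ordS (d : ℕ) :
    interior (ordS d) = {t | StrictMono t ∧ ∀ i, t i ∈ Ioo (0 : ℝ) 1} := by
  refine Subset.antisymm (fun t ht => ⟨fun i j hij => ?_, fun i => ⟨?_, ?_⟩⟩)
    (interior_maximal (fun t ht => ⟨ht.1.monotone, fun i => Ioo_subset_Icc_self (ht.2 i)⟩)
      (open_int d))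
  · obtain ⟨e, e0, h⟩ := move ht (Pi.single i 1)
    have := h.1 hij.le
    simp [Pi.single_apply, hij.ne'] at this
    linarith
  · obtain ⟨e, e0, h⟩ := move ht fun _ => -1
    have := (h.2 i).1
    simp at this
    linarith
  · obtain ⟨e, e0, h⟩ := move ht fun _ => 1
    have := (h.2 i).2
    simp at this
    linarith

theorem body : BodyS := fun d => by
  refine ⟨fun s hs t ht a b ha hb hab => ⟨fun i j hij => ?_, fun i => ?_⟩, ?_, ?_, interior_ordS d⟩
  · simp only [Pi.add_apply, Pi.smul_apply, smul_eq_mul]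
    exact add_le_add (mul_le_mul_of_nonneg_left (hs.1 hij) ha)
      (mul_le_mul_of_nonneg_left (ht.1 hij) hb)
  · exact convex_Icc (0 : ℝ) 1 (hs.2 i) (ht.2 i) ha hb hab
  · exact (isCompact_univ_pi fun _ : Fin d => isCompact_Icc (a := (0 : ℝ)) (b := 1)).of_isClosed_subset
      (closed_ordS d) fun t ht i _ => ht.2 i
  · rw [interior_ordS]
    have p : (0 : ℝ) < d + 1 := by positivity
    refine ⟨fun i => ((i : ℕ) + 1 : ℝ) / (d + 1), fun i j hij => ?_, fun i => ⟨by positivity, ?_⟩⟩
    · have : ((i : ℕ) : ℝ) < (j : ℕ) := by exact_mod_cast hij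
      exact div_lt_div_of_pos_right (by linarith) p
    · have : ((i : ℕ) : ℝ) < d := by exact_mod_cast i.2
      rw [div_lt_one p]
      linarith

end Vale.Agent.P251EJ41
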