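import Vale.Agent.P251EJ.DefsS

/-!
# P251EJ, row SP: the symmetric product
-/

set_option linter.all false

open Set Topology Filter

namespace Vale.Agent.P251EJ41

open Vale.Agent.P251EJ

/-- the action of the permutations on the power -/
def permAct (M : ℕ) (X : Type) : MulAction (Equiv.Perm (Fin M)) (Fin M → X) where
  smul σ y := y ∘ σ.symm
  one_smul _ := rfl
  mul_smul _ _ _ := rfl

theorem symS : SymS := by
  intro M X _ _ _
  letI := permAct M X
  haveI : ContinuousConstSMul (Equiv.Perm (Fin M)) (Fin M → X) :=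
    ⟨fun σ => continuous_pi fun i => continuous_apply (σ.symm i)⟩
  haveI : ProperlyDiscontinuousSMul (Equiv.Perm (Fin M)) (Fin M → X) := inferInstance
  refine ⟨Quotient (MulAction.orbitRel (Equiv.Perm (Fin M)) (Fin M → X)), inferInstance,
    inferInstance, inferInstance, ⟨Quotient.mk _, continuous_quotient_mk'⟩,
    Quotient.mk_surjective, fun y y' => ?_⟩
  refine Quotient.eq.trans ⟨fun ⟨σ, h⟩ => ⟨σ, ?_⟩, fun ⟨σ, h⟩ => ⟨σ, ?_⟩⟩
  · rw [← h]
    funext i
    show y' i = y' (σ.symm (σ i))
    rw [σ.symm_apply_apply]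
  · rw [h]
    funext i
    show y (σ (σ.symm i)) = y i
    rw [σ.apply_symm_apply]

end Vale.Agent.P251EJ41
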